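import Vale.Agent.Lib.P154Q4.K2Id

/-!
General facts on Fourier coordinates of quadruples, symmetric reduction and bounds.
-/

namespace Vale.Agent.Lib.P154Q4.TT

open Vale.Agent.Lib.P154Q4.Kron Vale.Agent.Lib.P154Q4.Cells Vale.Agent.Lib.P154Q4.K2

/-- Fourier coordinates of a quadruple -/
noncomputable def f1 (a b c d : ℝ) : ℝ := (a + b - c - d) / 2

/-- Fourier coordinates of a quadruple -/
noncomputable def f2 (a b c d : ℝ) : ℝ := (a - b + c - d) / 2

/-- Fourier coordinates of a quadruple -/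
noncomputable def f3 (a b c d : ℝ) : ℝ := (a - b - c + d) / 2

/-- a property invariant under adjacent transpositions and true on sorted quadruples holds -/
theorem wlog4 (Q : ℝ → ℝ → ℝ → ℝ → Prop) (h12 : ∀ a b c d, Q b a c d → Q a b c d)
    (h23 : ∀ a b c d, Q a c b d → Q a b c d) (h34 : ∀ a b c d, Q a b d c → Q a b c d)
    (hs : ∀ a b c d, b ≤ a → c ≤ b → d ≤ c → Q a b c d) : ∀ a b c d, Q a b c d := by
  have key1 : ∀ a b c d, c ≤ b → d ≤ c → Q a b c d := by
    intro a b c d hbc hcd
    rcases le_total b a with h | h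
    · exact hs a b c d h hbc hcd
    · apply h12
      rcases le_total c a with h' | h'
      · exact hs b a c d h h' hcd
      · apply h23
        rcases le_total d a with h'' | h''
        · exact hs b c a d hbc h' h''
        · apply h34
          exact hs b c d a hbc hcd h''
  have key2 : ∀ a b c d, d ≤ c → Q a b c d := by
    intro a b c d hcd
    rcases le_total c b with h | h
    · exact key1 a b c d h hcd
    · apply h23
      rcases le_total d b with h' | h'
      · exact key1 a c b d h h'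
      · apply h34
        exact key1 a c d b hcd h'
  intro a b c d
  rcases le_total d c with h | h
  · exact key2 a b c d h
  · apply h34
    exact key2 a b d c h

theorem Pval_congr (T : Terms) {x y z u v w x' y' z' u' v' w' : ℝ}
    (h1 : sig1 x y z = sig1 u v w) (h2 : pii x y z = pii u v w) (h3 : sig2 x y z = sig2 u v w)
    (h1' : sig1 x' y' z' = sig1 u' v' w') (h2' : pii x' y' z' = pii u' v' w')
    (h3' : sig2 x' y' z' = sig2 u' v' w') :
    Pval T x y z x' y' z' = Pval T u v w u' v' w' := by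
  unfold Pval
  rw [h1, h2, h3, h1', h2', h3']

/-- the three invariants at the Fourier coordinates are symmetric -/
theorem inv12 (a b c d : ℝ) :
    sig1 (f1 b a c d) (f2 b a c d) (f3 b a c d) = sig1 (f1 a b c d) (f2 a b c d) (f3 a b c d) ∧
    pii (f1 b a c d) (f2 b a c d) (f3 b a c d) = pii (f1 a b c d) (f2 a b c d) (f3 a b c d) ∧
    sig2 (f1 b a c d) (f2 b a c d) (f3 b a c d) = sig2 (f1 a b c d) (f2 a b c d) (f3 a b c d) := by
  unfold sig1 pii sig2 f1 f2 f3
  refine ⟨by ring, by ring, by ring⟩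

/-- the three invariants at the Fourier coordinates are symmetric -/
theorem inv23 (a b c d : ℝ) :
    sig1 (f1 a c b d) (f2 a c b d) (f3 a c b d) = sig1 (f1 a b c d) (f2 a b c d) (f3 a b c d) ∧
    pii (f1 a c b d) (f2 a c b d) (f3 a c b d) = pii (f1 a b c d) (f2 a b c d) (f3 a b c d) ∧
    sig2 (f1 a c b d) (f2 a c b d) (f3 a c b d) = sig2 (f1 a b c d) (f2 a b c d) (f3 a b c d) := by
  unfold sig1 pii sig2 f1 f2 f3
  refine ⟨by ring, by ring, by ring⟩

/-- the three invariants at the Fourier coordinates are symmetric -/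
theorem inv34 (a b c d : ℝ) :
    sig1 (f1 a b d c) (f2 a b d c) (f3 a b d c) = sig1 (f1 a b c d) (f2 a b c d) (f3 a b c d) ∧
    pii (f1 a b d c) (f2 a b d c) (f3 a b d c) = pii (f1 a b c d) (f2 a b c d) (f3 a b c d) ∧
    sig2 (f1 a b d c) (f2 a b d c) (f3 a b d c) = sig2 (f1 a b c d) (f2 a b c d) (f3 a b c d) := by
  unfold sig1 pii sig2 f1 f2 f3
  refine ⟨by ring, by ring, by ring⟩

theorem inCell_S0 {a b c d : ℝ} (hab : b ≤ a) (hbc : c ≤ b) (hcd : d ≤ c) (hd : 0 ≤ d)
    (hs : a + b + c + d = 1) : InCell K2.S0 (f1 a b c d) (f2 a b c d) (f3 a b c d) := by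
  refine ⟨a - b, 2 * (b - c), 3 * (c - d), 4 * d, by linarith, by linarith, by linarith, by linarith,
    by linarith, ?_, ?_, ?_⟩ <;> simp [K2.S0, f1, f2, f3] <;> ring

theorem inCell_Z0 : InCell K2.Z0 0 0 0 := by
  refine ⟨1, 0, 0, 0, by norm_num, by norm_num, by norm_num, by norm_num, by norm_num, ?_, ?_, ?_⟩ <;>
    simp [K2.Z0]

theorem I2_eq {a b c d : ℝ} (hs : a + b + c + d = 1) :
    I2 a b c d = sig1 (f1 a b c d) (f2 a b c d) (f3 a b c d) := by
  have hd : d = 1 - a - b - c := by linarith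
  subst hd
  unfold I2 sig1 f1 f2 f3
  ring

theorem I3_eq {a b c d : ℝ} (hs : a + b + c + d = 1) :
    I3 a b c d = 3 * pii (f1 a b c d) (f2 a b c d) (f3 a b c d) := by
  have hd : d = 1 - a - b - c := by linarith
  subst hd
  unfold I3 pii f1 f2 f3
  ring

theorem bd_f1 : Bd f1 := by
  have : f1 = fun a b c d => (1 / 2 : ℝ) * (a + b - c - d) := by
    funext a b c d
    unfold f1
    ring
  rw [this]
  exact Bd.smul _ (((Bd.fst.add Bd.snd).sub Bd.thd).sub Bd.fth)

theorem bd_f2 : Bd f2 := by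
  have : f2 = fun a b c d => (1 / 2 : ℝ) * (a - b + c - d) := by
    funext a b c d
    unfold f2
    ring
  rw [this]
  exact Bd.smul _ (((Bd.fst.sub Bd.snd).add Bd.thd).sub Bd.fth)

theorem bd_f3 : Bd f3 := by
  have : f3 = fun a b c d => (1 / 2 : ℝ) * (a - b - c + d) := by
    funext a b c d
    unfold f3
    ring
  rw [this]
  exact Bd.smul _ (((Bd.fst.sub Bd.snd).sub Bd.thd).add Bd.fth)

theorem bd_sig1 : Bd fun a b c d => sig1 (f1 a b c d) (f2 a b c d) (f3 a b c d) := by
  unfold sig1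
  exact ((bd_f1.pow 2).add (bd_f2.pow 2)).add (bd_f3.pow 2)

theorem bd_pii : Bd fun a b c d => pii (f1 a b c d) (f2 a b c d) (f3 a b c d) := by
  unfold pii
  exact (bd_f1.mul bd_f2).mul bd_f3

theorem bd_sig2 : Bd fun a b c d => sig2 (f1 a b c d) (f2 a b c d) (f3 a b c d) := by
  unfold sig2
  exact (((bd_f1.pow 2).mul (bd_f2.pow 2)).add ((bd_f1.pow 2).mul (bd_f3.pow 2))).add
    ((bd_f2.pow 2).mul (bd_f3.pow 2))

theorem bd_monoVal (m : Mono) :
    Bd fun a b c d => monoVal (sig1 (f1 a b c d) (f2 a b c d) (f3 a b c d))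
      (pii (f1 a b c d) (f2 a b c d) (f3 a b c d)) (sig2 (f1 a b c d) (f2 a b c d) (f3 a b c d)) m := by
  unfold monoVal
  exact ((bd_sig1.pow _).mul (bd_pii.pow _)).mul (bd_sig2.pow _)

theorem bd_innerVal (g : Mono → ℝ) (l : List (Mono × ℤ)) :
    Bd fun _ _ _ _ => innerVal g l := Bd.const _

theorem bd_Pval0 (T : Terms) :
    Bd fun a b c d => Pval T (f1 a b c d) (f2 a b c d) (f3 a b c d) 0 0 0 := by
  unfold Pval
  induction T with
  | nil => simpa [outerVal] using Bd.const 0
  | cons t l ih =>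
    simp only [outerVal]
    exact ((bd_monoVal t.1).mul (bd_innerVal _ _)).add ih


end Vale.Agent.Lib.P154Q4.TT
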