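import Vale.Agent.Lib.P154Q4.TT.Class

/-!
Data for the first kernel of the full simplex.
-/

namespace Vale.Agent.Lib.P154Q4.TT.K1

open Vale.Agent.Lib.P154Q4.Cells

/-- the difference polynomial of the first kernel times 1200 -/
def TK : Terms := [
  ((0,0,1), [((0,0,1),354400), ((0,1,0),-147000), ((0,2,0),-59200), ((1,0,0),6400), ((1,0,1),-888000), ((1,1,0),1018400), ((2,0,0),-165840), ((3,0,0),179200)]),
  ((0,0,2), [((0,0,2),130457600), ((0,1,1),-29286400), ((1,2,0),-93184000), ((2,0,1),-39936000), ((2,1,0),7987200), ((4,0,0),2662400)]),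
  ((0,1,0), [((0,0,1),-133800), ((0,2,0),355200), ((1,0,1),384000), ((1,1,0),-16800), ((2,0,0),5868), ((3,0,0),-86400)]),
  ((0,1,1), [((0,0,2),-29286400), ((0,1,1),-423424000), ((0,2,0),103219200), ((1,0,1),7372800), ((1,2,0),-21299200), ((2,0,1),7987200), ((2,1,0),124416000), ((3,0,0),-2457600)]),
  ((0,2,0), [((0,0,1),-25600), ((0,1,0),153600), ((0,1,1),103219200), ((0,2,0),99439200), ((1,0,1),-16231200), ((1,1,0),-15718400), ((1,2,0),-28828800), ((2,0,0),-35328), ((2,0,1),2620800), ((2,1,0),-14745600), ((3,0,0),2299200), ((4,0,0),-249600)]),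
  ((1,0,0), [((0,0,1),6400), ((1,1,0),-25600), ((2,0,0),2357)]),
  ((1,0,1), [((0,0,1),-902400), ((0,1,0),470400), ((0,1,1),7372800), ((0,2,0),-16231200), ((1,0,1),6712800), ((1,1,0),-2323200), ((1,2,0),2620800), ((2,0,0),56608), ((2,0,1),-1372800), ((2,1,0),2457600), ((3,0,0),-1640000), ((4,0,0),249600)]),
  ((1,1,0), [((0,0,1),1024800), ((0,1,0),-2400), ((0,2,0),-15584000), ((1,0,0),-25600), ((1,0,1),-2380800), ((1,1,0),128000), ((2,0,0),332912), ((2,1,0),3072000), ((3,0,0),-57600)]),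
  ((1,2,0), [((0,0,2),-93184000), ((0,1,1),-21299200), ((0,2,0),-28828800), ((1,0,1),2620800), ((1,2,0),546291200), ((2,0,1),-25459200), ((2,1,0),-15974400), ((3,0,0),-249600), ((4,0,0),4326400)]),
  ((2,0,0), [((0,0,1),-170104), ((0,1,0),13236), ((0,2,0),-81696), ((1,0,0),2357), ((1,0,1),76480), ((1,1,0),341136), ((2,0,0),25712), ((3,0,0),-62528)]),
  ((2,0,1), [((0,0,2),-39936000), ((0,1,1),7987200), ((0,2,0),2620800), ((1,0,1),-1372800), ((1,2,0),-25459200), ((2,0,1),30451200), ((2,1,0),-3993600), ((3,0,0),249600), ((4,0,0),-4326400)]),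
  ((2,1,0), [((0,0,2),7987200), ((0,1,1),124416000), ((0,2,0),-14745600), ((1,0,1),2457600), ((1,1,0),3072000), ((1,2,0),-15974400), ((2,0,1),-3993600), ((2,1,0),-49920000), ((3,0,0),1228800)]),
  ((3,0,0), [((0,0,1),184000), ((0,1,0),-115200), ((0,1,1),-2457600), ((0,2,0),2299200), ((1,0,1),-1640000), ((1,1,0),-76800), ((1,2,0),-249600), ((2,0,0),-55904), ((2,0,1),249600), ((2,1,0),1228800), ((3,0,0),436800), ((4,0,0),-83200)]),
  ((4,0,0), [((0,0,2),2662400), ((0,2,0),-249600), ((1,0,1),249600), ((1,2,0),4326400), ((2,0,1),-4326400), ((3,0,0),-83200), ((4,0,0),998400)])]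

/-- the multiplier on the second point times 8 -/
def TA : Terms := [
  ((0,0,1), [((0,0,0),-154)]),
  ((0,1,0), [((0,0,0),-39)]),
  ((0,2,0), [((0,0,0),-296)]),
  ((1,0,0), [((0,0,0),32)]),
  ((1,0,1), [((0,0,0),-320)]),
  ((1,1,0), [((0,0,0),436)]),
  ((2,0,0), [((0,0,0),-18)]),
  ((3,0,0), [((0,0,0),72)])]

/-- the multiplier on the first point times 8 -/
def TB : Terms := [
  ((0,0,1), [((0,0,0),-140)]),
  ((0,1,0), [((0,0,0),-57)]),
  ((0,2,0), [((0,0,0),-128)]),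
  ((1,0,0), [((0,0,0),32)]),
  ((1,0,1), [((0,0,0),-392)]),
  ((1,1,0), [((0,0,0),412)]),
  ((2,0,0), [((0,0,0),-20)]),
  ((3,0,0), [((0,0,0),96)])]

end Vale.Agent.Lib.P154Q4.TT.K1
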